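import Vale.Agent.P354T.Baire

/-!
Scale invariant bounds for the derivatives of functions on the cylinder.
-/

open scoped ContDiff
open Set Filter Topology

noncomputable section

namespace Vale.Agent.P354M2

open Vale.Agent.P354I (X wn pd ee)
open Vale.Agent.P354T (Sm wt)

variable {V : Type} [NormedAddCommGroup V] [NormedSpace ℝ V]

/-- Scale invariant bounds at the point y. -/
def Hb (m : ℕ) (F : X → V) (y : X) (c : ℝ) : Prop :=
  ∀ j ≤ m, ‖y‖ ^ j * ‖iteratedFDeriv ℝ j F y‖ ≤ c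

variable {m : ℕ} {y : X} {a b c : ℝ}

lemma le_inf (j : ℕ) : (j : WithTop ℕ∞) ≤ ∞ := by exact_mod_cast le_top

lemma at0 {F : X → V} (h : ContDiffOn ℝ ∞ F {0}ᶜ) (hy : y ≠ 0) : ContDiffAt ℝ ∞ F y :=
  h.contDiffAt (isOpen_compl_singleton.mem_nhds hy)

lemma it_eq (F : X → V) (j : ℕ) (hy : y ≠ 0) :
    iteratedFDerivWithin ℝ j F {0}ᶜ y = iteratedFDeriv ℝ j F y :=
  iteratedFDerivWithin_of_isOpen j isOpen_compl_singleton hy

lemma Hb.mono {F : X → V} {m' : ℕ} (h : Hb m F y a) (hm : m' ≤ m) (hc : a ≤ b) : Hb m' F y b :=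
  fun j hj => (h j (hj.trans hm)).trans hc

lemma Hb.zero {F : X → V} (h : Hb m F y a) : ‖F y‖ ≤ a := by simpa using h 0 (Nat.zero_le _)

lemma Hb.nonneg {F : X → V} (h : Hb m F y a) : 0 ≤ a := (norm_nonneg _).trans h.zero

lemma Hb.congr {F G : X → V} (h : Hb m F y a) (e : G =ᶠ[𝓝 y] F) : Hb m G y a := fun j hj => by
  rw [(e.iteratedFDeriv ℝ j).eq_of_nhds]
  exact h j hj

lemma Hb.const (m : ℕ) (v : V) (y : X) : Hb m (fun _ => v) y ‖v‖ := by
  intro j _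
  rcases eq_or_ne j 0 with rfl | hj
  · simp
  · simp [iteratedFDeriv_const_of_ne hj]

lemma Hb.add {F G : X → V} (hF : ContDiffOn ℝ ∞ F {0}ᶜ) (hG : ContDiffOn ℝ ∞ G {0}ᶜ) (hy : y ≠ 0)
    (h : Hb m F y a) (h' : Hb m G y b) : Hb m (fun y => F y + G y) y (a + b) := by
  intro j hj
  have e : iteratedFDeriv ℝ j (fun y => F y + G y) y = _ :=
    iteratedFDeriv_add_apply ((at0 hF hy).of_le (le_inf j)) ((at0 hG hy).of_le (le_inf j))
  rw [e]
  refine (mul_le_mul_of_nonneg_left (norm_add_le _ _) (by positivity)).trans ?_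
  rw [mul_add]
  exact add_le_add (h j hj) (h' j hj)

lemma Hb.neg {F : X → V} (h : Hb m F y a) : Hb m (fun y => -F y) y a := by
  intro j hj
  have : iteratedFDeriv ℝ j (fun y => -F y) y = -iteratedFDeriv ℝ j F y := iteratedFDeriv_neg_apply
  rw [this, norm_neg]
  exact h j hj

lemma Hb.sum {ι : Type} (s : Finset ι) {F : ι → X → V} (hF : ∀ i, ContDiffOn ℝ ∞ (F i) {0}ᶜ)
    (hy : y ≠ 0) (h : ∀ i, Hb m (F i) y a) : Hb m (fun y => ∑ i ∈ s, F i y) y (s.card * a) := by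
  intro j hj
  rw [iteratedFDeriv_fun_sum_apply fun i _ => (at0 (hF i) hy).of_le (le_inf j)]
  refine (mul_le_mul_of_nonneg_left (norm_sum_le _ _) (by positivity)).trans ?_
  rw [Finset.mul_sum, ← nsmul_eq_mul]
  exact Finset.sum_le_card_nsmul _ _ _ fun i _ => h i j hj

lemma Hb.smul {F : X → ℝ} {G : X → V} (hF : Sm F) (hG : ContDiffOn ℝ ∞ G {0}ᶜ) (hy : y ≠ 0)
    (h : Hb m F y a) (h' : Hb m G y b) : Hb m (fun y => F y • G y) y (2 ^ m * a * b) := by
  intro j hj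
  have k := norm_iteratedFDerivWithin_smul_le hF hG isOpen_compl_singleton.uniqueDiffOn hy
    (le_inf j)
  simp only [it_eq _ _ hy] at k
  refine (mul_le_mul_of_nonneg_left k (by positivity)).trans ?_
  have h0 := mul_nonneg h.nonneg h'.nonneg
  calc ‖y‖ ^ j * ∑ i ∈ Finset.range (j + 1), (j.choose i : ℝ) * ‖iteratedFDeriv ℝ i F y‖ *
        ‖iteratedFDeriv ℝ (j - i) G y‖
      ≤ ∑ i ∈ Finset.range (j + 1), (j.choose i : ℝ) * (a * b) := by
        rw [Finset.mul_sum]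
        refine Finset.sum_le_sum fun i hi => ?_
        have hi' : i ≤ j := Nat.lt_succ_iff.1 (Finset.mem_range.1 hi)
        have e : ‖y‖ ^ j = ‖y‖ ^ i * ‖y‖ ^ (j - i) := by rw [← pow_add, Nat.add_sub_cancel' hi']
        refine le_trans (le_of_eq ?_) (mul_le_mul_of_nonneg_left (mul_le_mul (h i (hi'.trans hj))
          (h' (j - i) (by omega)) (by positivity) h.nonneg) (by positivity))
        rw [e]
        ring
    _ = 2 ^ j * (a * b) := by
        rw [← Finset.sum_mul, ← Nat.cast_sum, Nat.sum_range_choose]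
        push_cast
        rfl
    _ ≤ 2 ^ m * a * b := by
        rw [mul_assoc]
        exact mul_le_mul_of_nonneg_right (pow_le_pow_right₀ one_le_two hj) h0

lemma Hb.mul {F G : X → ℝ} (hF : Sm F) (hG : Sm G) (hy : y ≠ 0) (h : Hb m F y a)
    (h' : Hb m G y b) : Hb m (fun y => F y * G y) y (2 ^ m * a * b) := h.smul hF hG hy h'

lemma it_smul {t : ℝ} (ht : t ≠ 0) (F : X → V) (j : ℕ) (x : X) :
    iteratedFDeriv ℝ j (fun w => F (t • w)) x = t ^ j • iteratedFDeriv ℝ j F (t • x) := by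
  let g : X ≃L[ℝ] X := ContinuousLinearEquiv.smulLeft (Units.mk0 t ht)
  have h := g.iteratedFDerivWithin_comp_right F uniqueDiffOn_univ (mem_univ (g x)) j
  rw [preimage_univ, iteratedFDerivWithin_univ, iteratedFDerivWithin_univ] at h
  refine h.trans ?_
  ext v
  have := (iteratedFDeriv ℝ j F (t • x)).map_smul_univ (fun _ => t) v
  rw [Finset.prod_const, Finset.card_univ, Fintype.card_fin] at this
  exact this

lemma Hb.comp {g : X → V} {ψ : X → X} {D : ℝ} (hg : ContDiffOn ℝ ∞ g {0}ᶜ)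
    (hψ : ContDiffOn ℝ ∞ ψ {0}ᶜ) (h0 : ∀ y ≠ 0, ψ y ≠ 0) (hy : y ≠ 0) (hD : 1 ≤ D)
    (h : Hb m g (ψ y) c) (h' : Hb m ψ y (D * ‖ψ y‖)) :
    Hb m (fun y => g (ψ y)) y (m.factorial * c * D ^ m) := by
  intro j hj
  have t0 : 0 < ‖ψ y‖ := norm_pos_iff.2 (h0 y hy)
  have y0 : 0 < ‖y‖ := norm_pos_iff.2 hy
  have hu : ‖ψ y‖⁻¹ • ψ y ≠ 0 := smul_ne_zero (inv_ne_zero t0.ne') (h0 y hy)
  have k := norm_iteratedFDerivWithin_comp_le (g := fun w => g (‖ψ y‖ • w))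
    (f := fun w => ‖ψ y‖⁻¹ • ψ w) (C := c) (D := D / ‖y‖) (s := {0}ᶜ) (t := {0}ᶜ)
    (hg.comp (contDiff_const_smul _).contDiffOn fun w hw => smul_ne_zero t0.ne' hw)
    (hψ.const_smul _) (le_inf j) isOpen_compl_singleton.uniqueDiffOn
    isOpen_compl_singleton.uniqueDiffOn
    (fun w hw => smul_ne_zero (inv_ne_zero t0.ne') (h0 w hw)) hy
    (fun i hi => by
      rw [it_eq _ _ hu, it_smul t0.ne', smul_inv_smul₀ t0.ne', norm_smul, norm_pow, norm_norm]
      exact h i (hi.trans hj))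
    (fun i h1 hi => by
      rw [it_eq _ _ hy, iteratedFDeriv_const_smul_apply' ((at0 hψ hy).of_le (le_inf i)), norm_smul,
        norm_inv, norm_norm, div_pow, le_div_iff₀ (by positivity), mul_assoc,
        inv_mul_le_iff₀ t0, mul_comm]
      refine (h' i (hi.trans hj)).trans ?_
      rw [mul_comm]
      exact mul_le_mul_of_nonneg_left (le_self_pow₀ hD (by omega)) t0.le)
  have e : ((fun w => g (‖ψ y‖ • w)) ∘ fun w => ‖ψ y‖⁻¹ • ψ w) = fun y => g (ψ y) := by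
    funext w
    simp only [Function.comp_apply, smul_inv_smul₀ t0.ne']
  rw [it_eq _ _ hy, e, div_pow, ← mul_div_assoc, le_div_iff₀ (by positivity), mul_comm] at k
  refine k.trans (mul_le_mul (mul_le_mul_of_nonneg_right ?_ h.nonneg) (pow_le_pow_right₀ hD hj)
    (by positivity) (mul_nonneg (by positivity) h.nonneg))
  exact_mod_cast Nat.factorial_le hj

lemma Hb.pd {ψ : X → X} (hψ : ContDiffOn ℝ ∞ ψ {0}ᶜ) (hy : y ≠ 0) (h : Hb (m + 1) ψ y c)
    (i k : Fin 3) : Hb m (fun y => pd i ψ y k) y (c / ‖y‖) := by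
  intro j hj
  have y0 : 0 < ‖y‖ := norm_pos_iff.2 hy
  have s : ContDiffAt ℝ ∞ (fderiv ℝ ψ) y :=
    at0 (hψ.fderiv_of_isOpen isOpen_compl_singleton le_rfl) hy
  have k1 := (EuclideanSpace.proj k : X →L[ℝ] ℝ).norm_iteratedFDeriv_comp_left
    (s.clm_apply (contDiffAt_const (c := ee i))) (le_inf j)
  have k2 := norm_iteratedFDeriv_clm_apply_const (c := ee i) s (le_inf j)
  have k3 : ‖(EuclideanSpace.proj k : X →L[ℝ] ℝ)‖ ≤ 1 :=
    ContinuousLinearMap.opNorm_le_bound _ zero_le_one fun v => by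
      rw [one_mul]
      exact PiLp.norm_apply_le v k
  have k4 : ‖ee i‖ = 1 := by simp [ee]
  rw [k4, one_mul, norm_iteratedFDeriv_fderiv] at k2
  have k5 := k1.trans (mul_le_mul k3 k2 (norm_nonneg _) zero_le_one)
  rw [le_div_iff₀ y0]
  refine le_trans ?_ (h (j + 1) (by omega))
  rw [mul_right_comm, ← pow_succ]
  exact mul_le_mul_of_nonneg_left (k5.trans_eq (one_mul _)) (by positivity)

lemma wt_eq (s : ℝ) (j : ℕ) (y : X) : wt s j y = wt s 0 y * ‖y‖ ^ j := by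
  simp only [wt, pow_add, pow_zero]
  ring

lemma hb_of_wn {s η : ℝ} {F : X → ℝ} (hη : 0 ≤ η) (h : wn s m F ≤ ENNReal.ofReal η) (hy : y ≠ 0) :
    Hb m F y (η / wt s 0 y) := fun j hj => by
  rw [le_div_iff₀' (P354T.wt_pos s 0 hy), ← mul_assoc, ← wt_eq]
  exact P354T.le_of_wn hj hη h hy

lemma wn_of_hb {s η : ℝ} {F : X → ℝ} (h : ∀ y ≠ 0, Hb m F y (η / wt s 0 y)) :
    wn s m F ≤ ENNReal.ofReal ((m + 1) * η) :=
  P354T.wn_le_of fun j hj y hy => by
    rw [wt_eq, mul_assoc, ← le_div_iff₀' (P354T.wt_pos s 0 hy)]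
    exact h y hy j hj

lemma hb_compact (m : ℕ) {F : X → V} (hF : ContDiffOn ℝ ∞ F {0}ᶜ) {K : Set X} (hK : IsCompact K)
    (h0 : ∀ y ∈ K, y ≠ 0) : ∃ C, 0 ≤ C ∧ ∀ y ∈ K, Hb m F y C := by
  choose C hC using fun j : ℕ => hK.exists_bound_of_continuousOn
    (f := fun y : X => ‖y‖ ^ j * ‖iteratedFDeriv ℝ j F y‖) fun y hy =>
      ((continuous_norm.pow j).continuousAt.mul
        ((at0 hF (h0 y hy)).continuousAt_iteratedFDeriv (le_inf j)).norm).continuousWithinAt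
  refine ⟨∑ j ∈ Finset.range (m + 1), |C j|, Finset.sum_nonneg fun _ _ => abs_nonneg _,
    fun y hy j hj => (((le_abs_self _).trans (hC j y hy)).trans (le_abs_self _)).trans ?_⟩
  exact Finset.single_le_sum (f := fun j => |C j|) (fun _ _ => abs_nonneg _)
    (Finset.mem_range.2 (by omega))

/-- Bounds for homogeneous functions. -/
lemma hb_hom (m k : ℕ) {F : X → V} (hF : ContDiffOn ℝ ∞ F {0}ᶜ)
    (h : ∀ t > 0, ∀ y ≠ 0, F y = t ^ k • F ((t : ℝ) • y)) :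
    ∃ C, 0 ≤ C ∧ ∀ y ≠ 0, Hb m F y (C / ‖y‖ ^ k) := by
  obtain ⟨C, C0, hC⟩ := hb_compact m hF (isCompact_sphere (0 : X) 1) fun y hy e => by
    simp [e] at hy
  refine ⟨C, C0, fun y hy j hj => ?_⟩
  have t0 : 0 < ‖y‖ := norm_pos_iff.2 hy
  have hu : ‖y‖⁻¹ • y ≠ 0 := smul_ne_zero (inv_ne_zero t0.ne') hy
  have u1 : ‖‖y‖⁻¹ • y‖ = 1 := by rw [norm_smul, norm_inv, norm_norm, inv_mul_cancel₀ t0.ne']
  have k1 := hC (‖y‖⁻¹ • y) (mem_sphere_zero_iff_norm.2 u1) j hj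
  have e : F =ᶠ[𝓝 (‖y‖⁻¹ • y)] fun w => ‖y‖ ^ k • F (‖y‖ • w) :=
    (eventually_ne_nhds hu).mono fun w hw => h _ t0 w hw
  have s : ContDiffAt ℝ j (fun w => F (‖y‖ • w)) (‖y‖⁻¹ • y) :=
    (at0 (hF.comp (contDiff_const_smul _).contDiffOn fun w hw => smul_ne_zero t0.ne' hw) hu).of_le
      (le_inf j)
  rw [u1, one_pow, one_mul, (e.iteratedFDeriv ℝ j).eq_of_nhds, iteratedFDeriv_const_smul_apply' s,
    it_smul t0.ne', smul_inv_smul₀ t0.ne', norm_smul, norm_smul, norm_pow, norm_pow, norm_norm]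
    at k1
  rwa [le_div_iff₀' (by positivity)]

end Vale.Agent.P354M2
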