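import Vale.Agent.P354I.Core2
import Vale.Agent.P354KU.Push
import Vale.Agent.P354M2.Hb

/-!
MIX: bounded geometry of stationary data and of the interpolation.
-/

open scoped ContDiff
open Set Filter Topology Matrix

noncomputable section

namespace Vale.Agent.P354M2

open Vale.Agent.P354H (X3 tr)
open Vale.Agent.P354J (pb PDy M3)
open Vale.Agent.P354I (X Dat Geo Sta MIX wn pm mix)
open Vale.Agent.P354T (UP qf Sm wt)
open Vale.Agent.P354KU (den pf pf_pb pf_smul den_smul)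

/-- Stationary tensors are homogeneous. -/
lemma hom {F : X → M3} (h : ∀ σ x y, pb σ F (x, y) = pb σ F (0, y)) {t : ℝ} (ht : 0 < t) {y : X}
    (hy : y ≠ 0) : F y = t ^ 2 • F (t • y) := by
  obtain ⟨σ, hσ⟩ : ∃ σ, den σ y ≠ 0 := by
    by_contra k
    push Not at k
    have h1 := k true
    have h2 := k false
    simp only [den, P354E.sg, cond_true, cond_false] at h1 h2
    exact hy (norm_eq_zero.1 (by linarith))
  have e : tr (Real.log t, 0, 0) (pb σ F) = pb σ F := by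
    funext z
    show pb σ F (z.1 + Real.log t, z.2 + (0, 0)) = pb σ F (z.1, z.2)
    rw [h, h σ z.1, Prod.mk_zero_zero, add_zero]
  have k := pf_smul σ (pb σ F) (Real.log t) y
  have h2 : den σ (Real.exp (Real.log t) • y) ≠ 0 := by
    rw [den_smul]
    exact mul_ne_zero (Real.exp_pos _).ne' hσ
  rwa [e, pf_pb hσ, pf_pb h2, Real.exp_log ht] at k

lemma wt00 (y : X) : wt 0 0 y = ‖y‖ ^ 2 := by simp [wt]

lemma wn_hom (m : ℕ) {F : X → M3} (hF : ∀ i j, Sm fun y => F y i j)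
    (h : ∀ σ x y, pb σ F (x, y) = pb σ F (0, y)) :
    ∃ B, ∀ i j, wn 0 m (fun y => F y i j) ≤ ENNReal.ofReal B := by
  choose C _ hC using fun p : Fin 3 × Fin 3 => hb_hom m 2 (hF p.1 p.2) fun t ht y hy => by
    rw [hom h ht hy]
    rfl
  obtain ⟨B, hB⟩ := (Set.finite_range fun p => (m + 1) * C p).bddAbove
  refine ⟨B, fun i j => (wn_of_hb fun y hy => ?_).trans
    (ENNReal.ofReal_le_ofReal (hB ⟨(i, j), rfl⟩))⟩
  rw [wt00]
  exact hC (i, j) y hy

theorem mix1 (k : Dat) (m : ℕ) (h : Sta k) : ∃ c > 0, ∃ B, Geo c B m k := by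
  obtain ⟨c, c0, hc⟩ := P354T.up_compact h.1.1 (fun y hy => (h.1.2 y hy).1)
    (isCompact_sphere (0 : X) 1) fun y hy e => by simp [e] at hy
  obtain ⟨B, hB⟩ := wn_hom m (fun i j => (h.1.1 i j).1) fun σ x y => (h.2 σ x y).1
  obtain ⟨B', hB'⟩ := wn_hom m (fun i j => (h.1.1 i j).2) fun σ x y => (h.2 σ x y).2
  refine ⟨c, c0, max B B', h.1, fun y hy v => ?_, fun i j =>
    ⟨(hB i j).trans (ENNReal.ofReal_le_ofReal (le_max_left _ _)),
      (hB' i j).trans (ENNReal.ofReal_le_ofReal (le_max_right _ _))⟩⟩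
  have t0 : 0 < ‖y‖ := norm_pos_iff.2 hy
  have u1 : ‖‖y‖⁻¹ • y‖ = 1 := by rw [norm_smul, norm_inv, norm_norm, inv_mul_cancel₀ t0.ne']
  have k1 := hc _ (mem_sphere_zero_iff_norm.2 u1) v
  rw [u1, hom (fun σ x y => (h.2 σ x y).1) t0 (smul_ne_zero (inv_ne_zero t0.ne') hy),
    smul_inv_smul₀ t0.ne'] at k1
  refine k1.trans_eq ?_
  simp only [qf, Fin.sum_univ_three, Matrix.smul_apply, smul_eq_mul]
  ring

/-- The cut off function. -/
def chi (y : X) : ℝ := Real.smoothTransition (Real.log ‖y‖)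

lemma chi_sm : Sm chi := fun y hy =>
  (Real.smoothTransition.contDiffAt.comp y
    ((contDiffAt_norm ℝ hy).log (norm_ne_zero_iff.2 hy))).contDiffWithinAt

lemma hb_chi (m : ℕ) : ∃ C, 0 ≤ C ∧ ∀ y ≠ 0, Hb m chi y C ∧ Hb m (fun y => 1 - chi y) y C := by
  have hK : IsCompact (Metric.closedBall (0 : X) (Real.exp 1) \ Metric.ball 0 1) :=
    (isCompact_closedBall _ _).diff Metric.isOpen_ball
  obtain ⟨C, C0, hC⟩ := hb_compact m chi_sm hK fun y hy e => by simp [e] at hy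
  have key : ∀ y ≠ 0, Hb m chi y (C + 1) := by
    intro y hy
    have cn : ContinuousAt (fun y : X => ‖y‖) y := continuous_norm.continuousAt
    rcases lt_or_ge ‖y‖ 1 with h | h
    · refine ((Hb.const m (0 : ℝ) y).congr ?_).mono le_rfl (by simp; linarith)
      filter_upwards [cn.eventually_lt continuousAt_const h] with w hw
      exact Real.smoothTransition.zero_of_nonpos (Real.log_nonpos (norm_nonneg _) hw.le)
    rcases lt_or_ge (Real.exp 1) ‖y‖ with h' | h'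
    · refine ((Hb.const m (1 : ℝ) y).congr ?_).mono le_rfl (by simp; linarith)
      filter_upwards [continuousAt_const.eventually_lt cn h'] with w hw
      exact Real.smoothTransition.one_of_one_le
        ((Real.le_log_iff_exp_le ((Real.exp_pos 1).trans hw)).2 hw.le)
    · exact (hC y ⟨mem_closedBall_zero_iff.2 h', fun k => (mem_ball_zero_iff.1 k).not_ge h⟩).mono
        le_rfl (by linarith)
  refine ⟨C + 2, by linarith, fun y hy => ⟨(key y hy).mono le_rfl (by linarith), ?_⟩⟩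
  simp only [sub_eq_add_neg]
  exact ((Hb.const m (1 : ℝ) y).add contDiffOn_const chi_sm.neg hy (key y hy).neg).mono le_rfl
    (by simp; linarith)

lemma wn_mix (m : ℕ) (B : ℝ) : ∃ B', ∀ F G : X → ℝ, Sm F → Sm G → wn 0 m F ≤ ENNReal.ofReal B →
    wn 0 m G ≤ ENNReal.ofReal B →
    wn 0 m (fun y => chi y * F y + (1 - chi y) * G y) ≤ ENNReal.ofReal B' := by
  obtain ⟨C, -, hC⟩ := hb_chi m
  have hB : ENNReal.ofReal B ≤ ENNReal.ofReal |B| := ENNReal.ofReal_le_ofReal (le_abs_self B)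
  refine ⟨(m + 1) * (2 * (2 ^ m * C * |B|)), fun F G hF hG h h' => wn_of_hb fun y hy => ?_⟩
  have s1 : Sm fun y => 1 - chi y := contDiffOn_const.sub chi_sm
  exact (((hC y hy).1.mul chi_sm hF hy (hb_of_wn (abs_nonneg B) (h.trans hB) hy)).add
    (chi_sm.mul hF) (s1.mul hG) hy ((hC y hy).2.mul s1 hG hy
      (hb_of_wn (abs_nonneg B) (h'.trans hB) hy))).mono le_rfl (le_of_eq (by ring))

lemma qf_mix (A B : M3) (a b : ℝ) (v : Fin 3 → ℝ) :
    qf (a • A + b • B) v = a * qf A v + b * qf B v := by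
  simp only [qf, Fin.sum_univ_three, Matrix.add_apply, Matrix.smul_apply, smul_eq_mul]
  ring

theorem mix_pdy {k k' : Dat} (h : PDy k) (h' : PDy k') : PDy (mix k k') := by
  have s1 : Sm fun y => 1 - chi y := contDiffOn_const.sub chi_sm
  refine ⟨fun i j => ⟨(chi_sm.mul (h.1 i j).1).add (s1.mul (h'.1 i j).1),
    (chi_sm.mul (h.1 i j).2).add (s1.mul (h'.1 i j).2)⟩, fun y hy => ⟨?_,
      ((h.2 y hy).2.smul _).add ((h'.2 y hy).2.smul _)⟩⟩
  refine P354T.posDef_of (((P354T.symm_of (h.2 y hy).1).smul _).add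
    ((P354T.symm_of (h'.2 y hy).1).smul _)) fun v hv => ?_
  have a0 : 0 ≤ chi y := Real.smoothTransition.nonneg _
  have a1 : chi y ≤ 1 := Real.smoothTransition.le_one _
  have q := P354T.qf_pos (h.2 y hy).1 hv
  have q' := P354T.qf_pos (h'.2 y hy).1 hv
  show 0 < qf (chi y • k.h y + (1 - chi y) • k'.h y) v
  rw [qf_mix]
  rcases a0.eq_or_lt with e | e
  · rw [← e]
    linarith
  · exact add_pos_of_pos_of_nonneg (mul_pos e q) (mul_nonneg (sub_nonneg.2 a1) q'.le)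

theorem mix_up {k k' : Dat} {c : ℝ} (h : UP k c) (h' : UP k' c) : UP (mix k k') c := by
  intro y hy v
  have a0 : 0 ≤ chi y := Real.smoothTransition.nonneg _
  have a1 : chi y ≤ 1 := Real.smoothTransition.le_one _
  have q := mul_le_mul_of_nonneg_left (h y hy v) a0
  have q' := mul_le_mul_of_nonneg_left (h' y hy v) (sub_nonneg.2 a1)
  show _ ≤ ‖y‖ ^ 2 * qf (chi y • k.h y + (1 - chi y) • k'.h y) v
  rw [qf_mix]
  linarith

theorem mix2 (m : ℕ) (B : ℝ) :
    ∃ B', ∀ c k k', Geo c B m k → Geo c B m k' → Geo c B' m (mix k k') := by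
  obtain ⟨B', hB⟩ := wn_mix m B
  exact ⟨B', fun c k k' G G' => ⟨mix_pdy G.1 G'.1, mix_up G.2.1 G'.2.1, fun i j =>
    ⟨hB _ _ (G.1.1 i j).1 (G'.1.1 i j).1 (G.2.2 i j).1 (G'.2.2 i j).1,
      hB _ _ (G.1.1 i j).2 (G'.1.1 i j).2 (G.2.2 i j).2 (G'.2.2 i j).2⟩⟩⟩

lemma wn_zero_le {s : ℝ} (hs : 0 ≤ s) (m : ℕ) (F : X → ℝ) : wn 0 m F ≤ wn s m F := by
  refine Finset.sum_le_sum fun j _ => iSup₂_mono fun y _ => ENNReal.ofReal_le_ofReal ?_
  refine mul_le_mul_of_nonneg_right (mul_le_mul_of_nonneg_right ?_ (by positivity)) (norm_nonneg _)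
  exact Real.rpow_le_rpow_of_exponent_le (P354T.one_le_rho _) hs

lemma wn_near {s B η : ℝ} {m : ℕ} (hs : 0 ≤ s) (hB : 0 ≤ B) (hη : η ≤ 1) {F G : X → ℝ} (hF : Sm F)
    (hG : Sm G) (h : wn 0 m G ≤ ENNReal.ofReal B)
    (h' : wn s m (fun y => F y - G y) ≤ ENNReal.ofReal η) :
    wn 0 m F ≤ ENNReal.ofReal (B + 1) := by
  have k := P354T.wn_add_le 0 m hG (hF.sub hG)
  simp only [add_sub_cancel] at k
  rw [ENNReal.ofReal_add hB zero_le_one]
  exact k.trans (add_le_add h ((wn_zero_le hs m _).trans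
    (h'.trans (ENNReal.ofReal_le_ofReal hη))))

lemma geo_pos {c B : ℝ} {m : ℕ} {k : Dat} (hc : 0 < c) (G : Geo c B m k) : 0 ≤ B := by
  by_contra hB
  have y0 : P354I.ee 0 ≠ 0 := norm_ne_zero_iff.1 (by simp [P354I.ee])
  have h1 := (G.2.2 0 0).1
  rw [ENNReal.ofReal_of_nonpos (not_le.1 hB).le, ← ENNReal.ofReal_zero] at h1
  have h2 := (hb_of_wn le_rfl h1 y0).zero
  rw [zero_div, norm_le_zero_iff] at h2
  exact (G.1.2 _ y0).1.diag_pos.ne' h2

theorem mix3 (c B : ℝ) (m : ℕ) (hc : 0 < c) : ∃ η > 0, ∀ s k d, 0 ≤ s → Geo c B m k → PDy d →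
    pm s m d k ≤ ENNReal.ofReal η → Geo (c / 2) (B + 1) m d := by
  have h0 : 0 < min 1 (c / 6) := lt_min one_pos (by positivity)
  refine ⟨min 1 (c / 6), h0, fun s k d hs G D h => ⟨D, fun y hy v => le_trans ?_
    (G.2.1.near hs h0.le ((P354T.pm_mono s (Nat.zero_le m) _ _).trans h) y hy v), fun i j =>
    ⟨wn_near hs (geo_pos hc G) (min_le_left _ _) (D.1 i j).1 (G.1.1 i j).1 (G.2.2 i j).1
      (P354T.pm_parts h i j).1,
    wn_near hs (geo_pos hc G) (min_le_left _ _) (D.1 i j).2 (G.1.1 i j).2 (G.2.2 i j).2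
      (P354T.pm_parts h i j).2⟩⟩⟩
  exact mul_le_mul_of_nonneg_right (by linarith [min_le_right 1 (c / 6)])
    (Finset.sum_nonneg fun _ _ => sq_nonneg _)

/-- **MIX.** -/
theorem mixThm : MIX := by
  refine ⟨mix1, mix2, mix3, fun k k' σ z => ⟨?_, ?_⟩⟩ <;>
    simp only [pb, mix, P354JK.norm_phi, Real.log_exp, Matrix.mul_add, Matrix.add_mul,
      Matrix.mul_smul, Matrix.smul_mul]

end Vale.Agent.P354M2
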