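import Vale.Agent.P354I.Core2
import Vale.Agent.P354J.Lip

/-!
LIP2: Lipschitz dependence of the initial values, uniform on bounded geometry.
-/

open scoped ContDiff
open Set Filter Topology Matrix

noncomputable section

namespace Vale.Agent.P354M2

open Vale.Agent.P354H Vale.Agent.P354J Vale.Agent.P354JK
open Vale.Agent.P354C (Ix detP)
open Vale.Agent.P354I (X Dat Geo LIP2 wn pm)
open Vale.Agent.P354T (UP qf)

/-- Positivity of the pull back. -/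
lemma up_pb {d : Dat} {c R : ℝ} (hc : 0 ≤ c) (h : UP d c) (σ : Bool) {z : X3} (hz : ‖z.2‖ ≤ R)
    (v : Fin 3 → ℝ) :
    c / (1 + 2 * R ^ 2) ^ 2 * ∑ i, v i ^ 2 ≤ ∑ i, ∑ j, v i * pb σ d.h z i j * v j := by
  let a : X3 := (v 0, v 1, v 2)
  have e0 : cx a = v := by
    funext i
    fin_cases i <;> rfl
  have e1 := pb_lin σ d.h z a a
  have e2 := inner_DP σ z a a
  have e3 := h _ (phi_ne σ z) fun k => DP σ z a k
  rw [e0] at e1
  rw [inner3] at e2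
  rw [norm_phi] at e3
  have he : 0 < Real.exp z.1 ^ 2 := by positivity
  have e4 : ∑ i, ∑ j, v i * pb σ d.h z i j * v j = qf (d.h (Phi σ z)) fun k => DP σ z a k := by
    simp only [qf, Fin.sum_univ_three] at e1 ⊢
    linarith
  rw [e4]
  refine le_of_mul_le_mul_left (le_trans ?_ e3) he
  have e5 : ∑ i, DP σ z a i ^ 2 = Real.exp z.1 ^ 2 * (a.1 * a.1 + P354R.rnd z.2 a.2 a.2) := by
    rw [← e2, Fin.sum_univ_three]
    ring
  rw [e5, mul_left_comm c, div_mul_eq_mul_div, mul_div_assoc]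
  refine mul_le_mul_of_nonneg_left (mul_le_mul_of_nonneg_left ?_ hc) he.le
  have z1 : z.2.1 ^ 2 ≤ R ^ 2 := by
    rw [← sq_abs]
    exact pow_le_pow_left₀ (abs_nonneg _) ((norm_fst_le z.2).trans hz) 2
  have z2 : z.2.2 ^ 2 ≤ R ^ 2 := by
    rw [← sq_abs]
    exact pow_le_pow_left₀ (abs_nonneg _) ((norm_snd_le z.2).trans hz) 2
  have q0 : 0 < 1 + z.2.1 ^ 2 + z.2.2 ^ 2 := by positivity
  have q1 : (1 + z.2.1 ^ 2 + z.2.2 ^ 2) ^ 2 ≤ (1 + 2 * R ^ 2) ^ 2 :=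
    pow_le_pow_left₀ q0.le (by linarith) 2
  have q2 : 1 ≤ (1 + 2 * R ^ 2) ^ 2 := one_le_pow₀ (by nlinarith [sq_nonneg R])
  rw [Fin.sum_univ_three, add_assoc, add_div]
  refine add_le_add ((div_le_self (sq_nonneg _) q2).trans_eq (sq _)) ?_
  unfold P354R.rnd
  refine div_le_div₀ (by nlinarith [sq_nonneg a.2.1, sq_nonneg a.2.2]) ?_ (by positivity) q1
  show v 1 ^ 2 + v 2 ^ 2 ≤ 4 * (v 1 * v 1 + v 2 * v 2)
  nlinarith [sq_nonneg (v 1), sq_nonneg (v 2)]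

lemma low {γ B : ℝ} (hγ : 0 < γ) : ∃ c0 > 0, ∀ H ∈ QQ γ B, c0 ≤ Oh (Matrix.of H) ∧
    c0 ≤ ph11 (Matrix.of H) * ph22 (Matrix.of H) - ph12 (Matrix.of H) * ph12 (Matrix.of H) := by
  have hc : ContinuousOn (fun H : N3 => min (Oh (Matrix.of H))
      (ph11 (Matrix.of H) * ph22 (Matrix.of H) - ph12 (Matrix.of H) * ph12 (Matrix.of H)))
      (QQ γ B) :=
    (sm_Oh.continuousOn.inf ((sm_ph11.mul sm_ph22).sub (sm_ph12.mul sm_ph12)).continuousOn).mono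
      (QQ_sub hγ)
  obtain ⟨c, c0, c1⟩ := (QQ_compact γ B).exists_forall_le' hc (a := 0) fun H hH =>
    lt_min (Oh_pos (QQ_sub hγ hH).2.1 (QQ_sub hγ hH).2.2)
      (detE_pos (QQ_sub hγ hH).1 (QQ_sub hγ hH).2.1 (QQ_sub hγ hH).2.2)
  exact ⟨c, c0, fun H hH => le_min_iff.1 (c1 H hH)⟩

lemma wt_zero (z : X3) : wt 0 z = 1 := by simp [wt]

/-- **LIP2.** -/
theorem lip2 : LIP2 := by
  intro c B R m hc
  obtain ⟨C0, hC0, hP⟩ := P354JP.pbe (m + 2) R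
  have hγ : 0 < c / (1 + 2 * R ^ 2) ^ 2 := by positivity
  set γ := c / (1 + 2 * R ^ 2) ^ 2 with hγ'
  obtain ⟨c0, hc0, hlow⟩ := low (B := C0 * |B|) hγ
  choose C hC hT using fun i => (tame_U0 (c := γ) (B := C0 * |B|) hγ i).est m (C0 * |B|)
  obtain ⟨C1, hC1⟩ := (Set.finite_range C).bddAbove
  have C10 : 0 ≤ C1 := (hC Ix.O).trans (hC1 ⟨Ix.O, rfl⟩)
  refine ⟨C1 * (1 + C0), c0, by positivity, hc0, fun s ε d d' hs hε G G' h3 σ z hz => ?_⟩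
  have near : ∀ d, ∀ G : Geo c B (m + 2) d,
      JJ ⟨(pb σ d.h, pb σ d.K), G.1.toPD σ⟩ z ∈
        QQ γ (C0 * |B|) ×ˢ Metric.closedBall 0 (C0 * |B|) ∧
      Bd (m + 2) (JJ ⟨(pb σ d.h, pb σ d.K), G.1.toPD σ⟩) z (C0 * |B|) := by
    intro d G
    have D := G.1
    have hB : ENNReal.ofReal B ≤ ENNReal.ofReal |B| := ENNReal.ofReal_le_ofReal (le_abs_self B)
    have k1 := hP 0 |B| d.h (abs_nonneg B)
      (fun i j => ⟨(D.1 i j).1, (G.2.2 i j).1.trans hB⟩) σ z hz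
    have k2 := hP 0 |B| d.K (abs_nonneg B)
      (fun i j => ⟨(D.1 i j).2, (G.2.2 i j).2.trans hB⟩) σ z hz
    simp only [wt_zero, mul_one] at k1 k2
    have b1 := bd_N3 (D.toPD σ).sh k1
    have b2 := bd_N3 (D.toPD σ).sK k2
    exact ⟨⟨⟨⟨sym_of_posDef ((D.toPD σ).pos z).1, up_pb hc.le G.2.1 σ hz⟩,
      mem_closedBall_zero_iff.2 b1.zero⟩, mem_closedBall_zero_iff.2 b2.zero⟩,
      Bd.pair (D.toPD σ).smN (contDiff_pi.2 fun i => contDiff_pi.2 fun j => (D.toPD σ).sK i j)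
        b1 b2⟩
  obtain ⟨n1, n2⟩ := near d G
  obtain ⟨n1', n2'⟩ := near d' G'
  refine ⟨(hlow _ n1.1).1, (hlow _ n1.1).2, fun i => ?_⟩
  have D := G.1
  have D' := G'.1
  have h1 := hP s ε (fun y => d.h y - d'.h y) hε (fun i j => ⟨(D.1 i j).1.sub (D'.1 i j).1,
    (wn_le_pm s _ d d' i j).1.trans h3⟩) σ z hz
  have h2 := hP s ε (fun y => d.K y - d'.K y) hε (fun i j => ⟨(D.1 i j).2.sub (D'.1 i j).2,
    (wn_le_pm s _ d d' i j).2.trans h3⟩) σ z hz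
  simp only [pb_sub] at h1 h2
  have sJ : ∀ d : DD, ContDiff ℝ ∞ (JJ d) := fun d =>
    d.2.smN.prodMk (contDiff_pi.2 fun i => contDiff_pi.2 fun j => d.2.sK i j)
  have sh := (D.toPD σ).sh.sub (D'.toPD σ).sh
  have sK := (D.toPD σ).sK.sub (D'.toPD σ).sK
  have k2 := hT i (C0 * ε * wt s z) z _ _ n1 n1' ⟨sJ _, sJ _, n2, n2', Bd.pair
    (contDiff_pi.2 fun i => contDiff_pi.2 fun j => sh i j)
    (contDiff_pi.2 fun i => contDiff_pi.2 fun j => sK i j)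
    (bd_N3 sh fun a b => h1 a b) (bd_N3 sK fun a b => h2 a b)⟩
  have k3 : C i ≤ C1 := hC1 ⟨i, rfl⟩
  have w0 := (P354JP.wt_pos s z).le
  refine k2.mono le_rfl (by nlinarith) ?_
  have : C i * C0 ≤ C1 * (1 + C0) := by nlinarith [hC i]
  calc C i * (C0 * ε * wt s z) = C i * C0 * (ε * wt s z) := by ring
    _ ≤ C1 * (1 + C0) * (ε * wt s z) := mul_le_mul_of_nonneg_right this (by positivity)
    _ = _ := by ring

end Vale.Agent.P354M2
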