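import Vale.Agent.P354I.Core2
import Vale.Agent.P354M2.Hb

/-!
PULL, parts 2 and 3: the pull back is bounded for the seminorms and keeps uniform positivity.
-/

open scoped ContDiff
open Set Filter Topology Matrix

noncomputable section

namespace Vale.Agent.P354M2

open Vale.Agent.P354I (X Dat Cy1 Cyl wn pm pd ee)
open Vale.Agent.P354T (UP DSm qf Sm wt)

lemma pd_sm {ψ : X → X} (h : ContDiffOn ℝ ∞ ψ {0}ᶜ) (i k : Fin 3) : Sm fun y => pd i ψ y k :=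
  (EuclideanSpace.proj k : X →L[ℝ] ℝ).contDiff.comp_contDiffOn
    ((h.fderiv_of_isOpen isOpen_compl_singleton (m := ∞) le_rfl).clm_apply contDiffOn_const)

lemma wt_le {B : ℕ → ℝ} {ψ : X → X} (h : Cy1 B ψ) {s D : ℝ} (hs : 0 ≤ s) (hD : 1 ≤ D)
    (hB : B 0 ≤ D) {y : X} (hy : y ≠ 0) :
    √(1 + Real.log ‖y‖ ^ 2) ^ s ≤ D ^ s * √(1 + Real.log ‖ψ y‖ ^ 2) ^ s := by
  rw [← Real.mul_rpow (by linarith) (Real.sqrt_nonneg _)]
  refine Real.rpow_le_rpow (Real.sqrt_nonneg _) (Real.sqrt_le_iff.2 ⟨by positivity, ?_⟩) hs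
  rw [mul_pow, Real.sq_sqrt (by positivity)]
  exact (h.log y hy).trans (mul_le_mul_of_nonneg_right (by nlinarith) (by positivity))

/-- The pull back of a tensor. -/
lemma wn_pull (B : ℕ → ℝ) {s : ℝ} (m : ℕ) (hs : 0 ≤ s) : ∃ C > 0, ∀ (ψ : X → X)
    (F : Fin 3 → Fin 3 → X → ℝ) (η : ℝ), 0 ≤ η → Cy1 B ψ → (∀ k l, Sm (F k l)) →
    (∀ k l, wn s m (F k l) ≤ ENNReal.ofReal η) → ∀ i j,
      wn s m (fun y => ∑ k, ∑ l, pd i ψ y k * pd j ψ y l * F k l (ψ y)) ≤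
        ENNReal.ofReal (C * η) := by
  obtain ⟨D, hD, hB⟩ : ∃ D, 1 ≤ D ∧ ∀ j ≤ m + 1, B j ≤ D := by
    have h0 : 0 ≤ ∑ j ∈ Finset.range (m + 2), |B j| := Finset.sum_nonneg fun _ _ => abs_nonneg _
    refine ⟨1 + ∑ j ∈ Finset.range (m + 2), |B j|, by linarith, fun j hj => ?_⟩
    have := Finset.single_le_sum (f := fun j => |B j|) (fun _ _ => abs_nonneg _)
      (Finset.mem_range.2 (show j < m + 2 by omega))
    linarith [le_abs_self (B j)]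
  have D0 : 0 < D := by linarith
  refine ⟨(m + 1) * (9 * (2 ^ m * (2 ^ m * D * D) * (m.factorial * D ^ m) * D ^ s)), by positivity,
    fun ψ F η hη h hF hw i j => ?_⟩
  rw [mul_assoc]
  refine wn_of_hb fun y hy => ?_
  have y0 : 0 < ‖y‖ := norm_pos_iff.2 hy
  have t0 : 0 < ‖ψ y‖ := norm_pos_iff.2 (h.ne y hy)
  have h1 : Hb (m + 1) ψ y (D * ‖ψ y‖) := fun j hj =>
    (h.bd j y hy).trans (mul_le_mul_of_nonneg_right (hB j hj) t0.le)
  have s1 : ∀ k l, Sm fun y => F k l (ψ y) := fun k l => (hF k l).comp h.sm h.ne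
  have s2 : ∀ k l, Sm fun y => pd i ψ y k * pd j ψ y l := fun k l =>
    (pd_sm h.sm i k).mul (pd_sm h.sm j l)
  have h2 := fun k l => (((h1.pd h.sm hy i k).mul (pd_sm h.sm i k) (pd_sm h.sm j l) hy
    (h1.pd h.sm hy j l)).mul (s2 k l) (s1 k l) hy (Hb.comp (hF k l) h.sm h.ne hy hD
      (hb_of_wn hη (hw k l) (h.ne y hy)) (h1.mono m.le_succ le_rfl)))
  refine (Hb.sum Finset.univ (fun k => ContDiffOn.sum fun l _ => (s2 k l).mul (s1 k l)) hy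
    fun k => Hb.sum Finset.univ (fun l => (s2 k l).mul (s1 k l)) hy (h2 k)).mono le_rfl ?_
  have h3 := wt_le h hs hD (hB 0 (Nat.zero_le _)) hy
  have r0 : 0 < √(1 + Real.log ‖y‖ ^ 2) ^ s := Real.rpow_pos_of_pos (P354T.rho_pos _) _
  have r1 : 0 < √(1 + Real.log ‖ψ y‖ ^ 2) ^ s := Real.rpow_pos_of_pos (P354T.rho_pos _) _
  simp only [wt, Finset.card_univ, Fintype.card_fin, add_zero]
  generalize √(1 + Real.log ‖y‖ ^ 2) ^ s = p at *
  generalize √(1 + Real.log ‖ψ y‖ ^ 2) ^ s = q at *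
  have h4 : p / q ≤ D ^ s := (div_le_iff₀ r1).2 h3
  have h5 := mul_le_mul_of_nonneg_left h4
    (show 0 ≤ 9 * (2 ^ m * (2 ^ m * D * D) * (m.factorial * D ^ m)) * η / (p * ‖y‖ ^ 2) by
      positivity)
  refine le_trans (le_of_eq ?_) (h5.trans_eq (by ring))
  push_cast
  field_simp
  ring

/-- **PULL, part 2.** -/
theorem pull2 (B : ℕ → ℝ) (s : ℝ) (m : ℕ) (hs : 0 ≤ s) : ∃ C : ℝ, 0 ≤ C ∧ ∀ ψ d d', Cy1 B ψ →
    DSm d → DSm d' → pm s m (d.pull ψ) (d'.pull ψ) ≤ ENNReal.ofReal C * pm s m d d' := by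
  obtain ⟨C, C0, hC⟩ := wn_pull B m hs
  refine ⟨18 * C, by positivity, fun ψ d d' h D D' => ?_⟩
  rcases eq_or_ne (pm s m d d') ⊤ with e | e
  · rw [e, ENNReal.mul_top (ENNReal.ofReal_pos.2 (by positivity)).ne']
    exact le_top
  have e' := (ENNReal.ofReal_toReal e).symm
  have η0 : 0 ≤ (pm s m d d').toReal := ENNReal.toReal_nonneg
  rw [e', ← ENNReal.ofReal_mul (by positivity), mul_assoc]
  refine P354T.pm_le_of (by positivity) fun i j => ⟨?_, ?_⟩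
  · refine le_of_eq_of_le (P354T.wn_congr s m fun y _ => ?_)
      (hC ψ (fun k l y => d.h y k l - d'.h y k l) _ η0 h (fun k l => (D k l).1.sub (D' k l).1)
        (fun k l => (P354T.pm_parts e'.le k l).1) i j)
    simp only [Dat.pull, of_apply, mul_sub, Finset.sum_sub_distrib]
  · refine le_of_eq_of_le (P354T.wn_congr s m fun y _ => ?_)
      (hC ψ (fun k l y => d.K y k l - d'.K y k l) _ η0 h (fun k l => (D k l).2.sub (D' k l).2)
        (fun k l => (P354T.pm_parts e'.le k l).2) i j)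
    simp only [Dat.pull, of_apply, mul_sub, Finset.sum_sub_distrib]

lemma fd_sum (L : X →L[ℝ] X) (v : Fin 3 → ℝ) (k : Fin 3) :
    L (WithLp.toLp 2 v) k = ∑ i, v i * L (ee i) k := by
  have : (WithLp.toLp 2 v : X) = ∑ i, v i • ee i := by
    ext j
    simp [ee, Pi.single_apply]
  rw [this, map_sum]
  simp

lemma qf_pull (d : Dat) (ψ : X → X) (y : X) (v : Fin 3 → ℝ) :
    qf ((d.pull ψ).h y) v = qf (d.h (ψ y)) fun k => fderiv ℝ ψ y (WithLp.toLp 2 v) k := by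
  simp only [qf, Dat.pull, of_apply, fd_sum, pd, Fin.sum_univ_three]
  ring

/-- **PULL, part 3.** -/
theorem pull3 (B : ℕ → ℝ) (c : ℝ) (hc : 0 < c) :
    ∃ c' > 0, ∀ ψ ψ' d, Cyl B ψ ψ' → UP d c → UP (d.pull ψ) c' := by
  refine ⟨c / (B 1 ^ 2 + 1), by positivity, fun ψ ψ' d h hd y hy v => ?_⟩
  have y0 : 0 < ‖y‖ := norm_pos_iff.2 hy
  have t0 : 0 < ‖ψ y‖ := norm_pos_iff.2 (h.l.ne y hy)
  have d1 := (at0 h.l.sm hy).differentiableAt (by simp)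
  have d2 := (at0 h.r.sm (h.l.ne y hy)).differentiableAt (by simp)
  have ev : ψ' ∘ ψ =ᶠ[𝓝 y] id := (eventually_ne_nhds hy).mono fun w hw => (h.inv w hw).2
  have k := ev.fderiv_eq (𝕜 := ℝ)
  rw [fderiv_comp y d2 d1, fderiv_id] at k
  have k1 : fderiv ℝ ψ' (ψ y) (fderiv ℝ ψ y (WithLp.toLp 2 v)) = WithLp.toLp 2 v :=
    congrArg (fun L : X →L[ℝ] X => L (WithLp.toLp 2 v)) k
  have k2 := (fderiv ℝ ψ' (ψ y)).le_opNorm (fderiv ℝ ψ y (WithLp.toLp 2 v))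
  have k3 := h.r.bd 1 _ (h.l.ne y hy)
  rw [pow_one, norm_iteratedFDeriv_one, (h.inv y hy).2] at k3
  have k4 := hd _ (h.l.ne y hy) fun k => fderiv ℝ ψ y (WithLp.toLp 2 v) k
  rw [← qf_pull, ← EuclideanSpace.real_norm_sq_eq] at k4
  rw [k1] at k2
  have e : ∑ i, v i ^ 2 = ‖(WithLp.toLp 2 v : X)‖ ^ 2 :=
    (EuclideanSpace.real_norm_sq_eq (WithLp.toLp 2 v : X)).symm
  rw [e, div_mul_eq_mul_div, div_le_iff₀ (by positivity)]
  have a0 := norm_nonneg (WithLp.toLp 2 v : X)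
  have w0 := norm_nonneg (fderiv ℝ ψ y (WithLp.toLp 2 v))
  generalize ‖fderiv ℝ ψ y (WithLp.toLp 2 v)‖ = w, ‖(WithLp.toLp 2 v : X)‖ = a,
    qf ((d.pull ψ).h y) v = q at *
  have q0 : 0 ≤ q := (mul_nonneg_iff_of_pos_left (pow_pos t0 2)).1 (le_trans (by positivity) k4)
  have k5 : ‖ψ y‖ * a ≤ B 1 * ‖y‖ * w :=
    (mul_le_mul_of_nonneg_left k2 t0.le).trans
      ((mul_assoc _ _ _).symm.trans_le (mul_le_mul_of_nonneg_right k3 w0))
  have k6 := mul_le_mul_of_nonneg_left (pow_le_pow_left₀ (by positivity) k5 2) hc.le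
  have k7 := mul_le_mul_of_nonneg_left k4 (sq_nonneg (B 1 * ‖y‖))
  have k8 : ‖ψ y‖ ^ 2 * (c * a ^ 2) ≤ ‖ψ y‖ ^ 2 * (‖y‖ ^ 2 * q * B 1 ^ 2) := by linarith
  have k9 := le_of_mul_le_mul_left k8 (pow_pos t0 2)
  have : 0 ≤ ‖y‖ ^ 2 * q := by positivity
  linarith

/-- PULL from its first part. -/
theorem pull_of (h : ∀ B ψ ψ' d, Cyl B ψ ψ' → P354J.PDy d → P354J.PDy (d.pull ψ) ∧
    (P354I.Con d → P354I.Con (d.pull ψ)) ∧ P354I.Eqv ((d.pull ψ).pull ψ') d ∧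
    ∀ (N : P354n.Spc) (j : X → N.pt), P354I.IsDev (d.pull ψ) N j → P354I.IsDev d N (j ∘ ψ')) :
    P354I.PULL := ⟨h, pull2, pull3⟩

end Vale.Agent.P354M2
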