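import Vale.Agent.P354J.Uq

/-!
The constraints of the frame system give the constraint equations, for any frame.
-/

open scoped ContDiff
open Set Filter Topology Matrix

noncomputable section

namespace Vale.Agent.P354M2

open Vale.Agent.P354H Vale.Agent.P354C Vale.Agent.P354C.Ix Vale.Agent.P354J

/-- A smooth frame u for the data (h, K). -/
structure FD0 (h K : X3 → M3) (u : X3 → Ix → ℝ) : Prop where
  pd : PD h K
  sm : ∀ i, ContDiff ℝ ∞ fun y => u y i
  ne : ∀ y, u y O ≠ 0 ∧ detP (u y) ≠ 0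
  ind : ∀ y a b, hf (u y) (e a) (e b) = h y a b

/-- The connection of the data in the frame u, and the unknowns. -/
def Au (h K : X3 → M3) (u : X3 → Ix → ℝ) : Fin 3 → X3 → M4 :=
  P354J.om h (fun y => (h y)⁻¹) K (fun y => u y O) (fun y => Eu (u y)) fun y => (Eu (u y))⁻¹
def Gu (h K : X3 → M3) (u : X3 → Ix → ℝ) : Fin 3 → X3 → M4 := ev (fun y => Eu (u y)) (Au h K u)
def Vu (h K : X3 → M3) (u : X3 → Ix → ℝ) (y : X3) (i : Ix) : ℝ :=
  bif isF i then u y i else u1 (h y) (fun a => Gu h K u a y) i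
def Fu (h K : X3 → M3) (u : X3 → Ix → ℝ) (a b : Fin 3) : X3 → M4 :=
  ev2 (fun y => Eu (u y)) (Au h K u) a b

variable {h K : X3 → M3} {u : X3 → Ix → ℝ}

lemma det_Eu (U : Ix → ℝ) : (Eu U).det = detP U := by simp [Eu, Matrix.det_fin_three, detP]

lemma Cu_eq {U : Ix → ℝ} (hP : detP U ≠ 0) : Cu U = (Eu U)⁻¹ :=
  (Matrix.inv_eq_left_inv (Cu_Eu hP)).symm

lemma FD0.frm (D : FD0 h K u) :
    Frm h (fun y => u y O) (fun y => Eu (u y)) fun y => (Eu (u y))⁻¹ := by
  have s : MS fun y => Eu (u y) := fun i j => by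
    fin_cases i <;> fin_cases j
    exacts [contDiff_const (c := 1), (D.sm b1).div_const 2, (D.sm b2).div_const 2,
      contDiff_const (c := 0), D.sm P11, D.sm P12, contDiff_const (c := 0), D.sm P21, D.sm P22]
  refine ⟨D.sm O, s, fun i j => contDiffOn_univ.1 (inv_smoothOn (fun i j => (s i j).contDiffOn)
    (fun y _ => by rw [det_Eu]; exact (D.ne y).2) i j), fun y => (D.ne y).1, fun y => ?_,
    fun y => ?_⟩
  · rw [← Cu_eq (D.ne y).2]
    exact Cu_Eu (D.ne y).2
  · have k : h y = u y O ^ 2 • (Cu (u y) * 1 * (Cu (u y))ᵀ) := by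
      ext a b
      rw [← D.ind, hf_eq, mul_one]
      rfl
    rw [k, Matrix.mul_smul, Matrix.smul_mul, conj_cancel (mul_eq_one_comm.1 (Cu_Eu (D.ne y).2))]

lemma FD0.cart (D : FD0 h K u) : Cart (fun y => u y O) (fun y => Eu (u y)) (Gu h K u) :=
  D.frm.cart D.pd.dat

lemma FD0.co (D : FD0 h K u) (y : X3) (s : Fin 3) :
    (Gu h K u s y)ᵀ * eta0 + eta0 * Gu h K u s y =
      (2 * (fd (fun y => Eu (u y)) s (fun y => u y O) y / u y O)) • eta0 := by
  rw [D.cart.co, mul_div_assoc]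

lemma FD0.gt (D : FD0 h K u) (y : X3) (s : Fin 3) :
    GT (Vu h K u y) s = cT s • (Zi * Gu h K u s y * Z) := GT_u1 (h y) (D.co y) s

lemma FD0.smV (D : FD0 h K u) (i : Ix) : ContDiff ℝ ∞ fun y => Vu h K u y i := by
  have g := D.cart.sm
  cases i
  all_goals first
    | exact D.sm _
    | exact (g _ _ _).add (g _ _ _)
    | exact (g _ _ _).sub (g _ _ _)
    | exact ((g _ _ _).add (g _ _ _)).neg
    | exact ((g _ _ _).sub (g _ _ _)).neg
    | exact ((g _ _ _).add (g _ _ _)).div_const 2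
    | exact ((g _ _ _).sub (g _ _ _)).div_const 2
    | exact contDiff_const.mul (g _ _ _)
    | exact g _ _ _
    | exact contDiff_const

lemma Eu_V (y : X3) : Eu (Vu h K u y) = Eu (u y) := rfl

lemma WT_V (y : X3) (s t : Fin 3) : WT (Vu h K u y) s t = 0 :=
  WT_u1 (h y) (fun a => Gu h K u a y) s t

lemma FD0.curT1 (D : FD0 h K u) (y : X3) (s t : Fin 3) (j k : Fin 4) :
    curT (Vu h K u y) (dsl (Vu h K u) y) s t j k =
      ((cT s * cT t) • (Zi * Fu h K u s t y * Z)) j k := by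
  have c := D.cart
  have k1 : ∀ s t, GT (DT (dsl (Vu h K u) y) s) t j k =
      cT s * cT t * (Zi * FD (fun y => Eu (u y)) s (Gu h K u t) y * Z) j k := by
    intro s t
    rw [DT_dsl, ← gtL_apply, map_smul, fd_lin _ _ D.smV]
    simp only [gtL_apply, D.gt, Eu_V]
    have := congrFun (congrFun (FD_conj (fun y => Eu (u y)) s (cT t) Zi Z (c.sm t) y) j) k
    rw [FD, of_apply] at this
    rw [this, Matrix.smul_apply, smul_eq_mul, smul_eq_mul, mul_assoc (cT s)]
  have k2 : ∀ s t, GT (Vu h K u y) s * GT (Vu h K u y) t =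
      (cT s * cT t) • (Zi * (Gu h K u s y * Gu h K u t y) * Z) := by
    intro s t
    rw [D.gt, D.gt, Matrix.smul_mul, Matrix.mul_smul, smul_smul]
    congr 1
    rw [mul_assoc, ← mul_assoc Z, ← mul_assoc Z, Z_Zi, one_mul]
    simp only [mul_assoc]
  have k3 : ∑ m, TT (Vu h K u y) s t m * Gam (Vu h K u y) m j k = cT s * cT t *
      ∑ c : Fin 3, (Gu h K u s y c.succ t.succ - Gu h K u t y c.succ s.succ) *
        (Zi * Gu h K u c y * Z) j k := by
    simp only [TT_conj (D.gt y), mul_assoc (cT s * cT t), ← Finset.mul_sum]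
    rw [Zi_gam (D.gt y) (fun c => Gu h K u s y c t.succ - Gu h K u t y c s.succ)
      (sub_eq_zero.2 (c.t0 s t y))]
  have k4 := ev2_eq D.frm.sE (D.frm.som D.pd.dat) s t y
  simp only [c.t3] at k4
  have k5 : ∑ j, (∑ c : Fin 3, (Gu h K u s y c.succ t.succ - Gu h K u t y c.succ s.succ) *
      Eu (u y) c j) • P354J.om h (fun y => (h y)⁻¹) K (fun y => u y O) (fun y => Eu (u y))
        (fun y => (Eu (u y))⁻¹) j y =
      ∑ c : Fin 3, (Gu h K u s y c.succ t.succ - Gu h K u t y c.succ s.succ) • Gu h K u c y := by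
    conv_rhs => enter [2, c, 2]; unfold Gu ev Au
    simp only [Fin.sum_univ_three]
    module
  rw [k5] at k4
  rw [curT_eq, k1, k1, k2, k2, k3, WT_V, Fu, Au, ← k4]
  change _ = ((cT s * cT t) • (Zi * (FD _ s (Gu h K u t) y - FD _ t (Gu h K u s) y +
    Gu h K u s y * Gu h K u t y - Gu h K u t y * Gu h K u s y - _) * Z)) j k
  simp only [Fin.sum_univ_three, mul_add, add_mul, mul_sub, sub_mul, Matrix.smul_mul,
    Matrix.mul_smul, Matrix.smul_apply, Matrix.add_apply, Matrix.sub_apply, smul_eq_mul,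
    Matrix.zero_apply]
  ring

lemma FD0.con1 (D : FD0 h K u) (y : X3) : Con1 (Vu h K u y) (DT (dsl (Vu h K u) y)) := by
  have c := D.cart
  refine ⟨fun s t μ => ?_, fun s => ?_⟩
  · have k : ∀ s t j, Eu' (DT (dsl (Vu h K u) y) s) t j =
        cT s * fd (fun y => Eu (u y)) s (fun z => Eu (u z) t j) y := by
      intro s t j
      let L : (Ix → ℝ) →ₗ[ℝ] ℝ :=
        { toFun := fun U => Eu' U t j
          map_add' := fun U V => by fin_cases t <;> fin_cases j <;> simp [Eu'] <;> ring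
          map_smul' := fun c U => by fin_cases t <;> fin_cases j <;> simp [Eu'] <;> ring }
      have h1 : Eu' (DT (dsl (Vu h K u) y) s) t j = L (DT (dsl (Vu h K u) y) s) := rfl
      rw [h1, DT_dsl, map_smul, fd_lin L _ D.smV, smul_eq_mul]
      congr 1
      fin_cases t <;> fin_cases j <;> first
        | rfl
        | exact (by simp [fd, L, Eu', Eu, pd_const])
    simp only [TT_conj (D.gt y), mul_assoc (cT s * cT t), ← Finset.mul_sum, k]
    rw [Zi_E _ (fun c => Gu h K u s y c t.succ - Gu h K u t y c s.succ)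
      (sub_eq_zero.2 (c.t0 s t y))]
    simp only [Eu_V, ← c.t3]
    fin_cases μ <;> simp [up] <;> ring
  · have k := congrFun (congrFun (eq_cof (D.co y s)) 0) 0
    have o := (D.ne y).1
    rw [DT_dsl]
    simp only [cof, of_apply, cons_val', cons_val_zero] at k
    have k1 : sgT (Vu h K u y) s = cT s * Gu h K u s y 0 0 := by
      fin_cases s <;> simp [sgT, Vu, isF, u1, cT] <;> ring
    rw [k1, k]
    show cT s * fd (fun y => Eu (u y)) s (fun y => u y O) y = u y O * _
    field_simp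

lemma FD0.kf (D : FD0 h K u) (y : X3) (a b : Fin 3) : Kf (Vu h K u y) (e a) (e b) = K y a b := by
  have k : kap (Vu h K u y) = (u y O)⁻¹ • (Eu (u y) * K y * (Eu (u y))ᵀ) := by
    ext s t
    exact (kap_u1 (h y) (D.co y) s t).trans (om_0s s t y)
  rw [Kf_eq, k, show Cu (Vu h K u y) = Cu (u y) from rfl, Matrix.mul_smul, Matrix.smul_mul,
    conj_cancel (Cu_Eu (D.ne y).2), Matrix.smul_apply, smul_eq_mul, ← mul_assoc]
  show u y O * _ * _ = _
  rw [mul_inv_cancel₀ (D.ne y).1, one_mul]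

lemma FD0.cc (D : FD0 h K u) {w : X3 → Ix → ℝ} {S : Set X3} (hS : IsOpen S)
    (hw : ∀ y ∈ S, w y = u y ∧ (∀ a b, Kf (w y) (e a) (e b) = K y a b) ∧ Constr (w y) (dsl w y)) :
    ∀ y ∈ S, CC h K y := by
  intro y hy
  obtain ⟨k1, k2⟩ := uq1 (u := w) (u' := Vu h K u) hS (fun y hy => by
    obtain ⟨h1, h2, h3⟩ := hw y hy
    refine ⟨h1 ▸ (D.ne y).2, h1 ▸ (D.ne y).1, ((constr_iff _ _).1 h3).1, D.con1 y, fun i hi => ?_,
      fun a b => (h2 a b).trans (D.kf y a b).symm⟩
    rw [h1, Vu, hi, cond_true]) y hy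
  have c := ((constr_iff _ _).1 (hw y hy).2.2).2
  refine (D.frm.traces D.pd.dat y).1 ((weyl_iff (alg_of D.frm (D.frm.som D.pd.dat)
    (D.frm.met D.pd.dat) (D.frm.tf D.pd.dat) y) (w y)
    (fun s t => (cT s * cT t) • (Zi * Fu h K u s t y * Z)) fun _ _ => rfl).1 fun s t => ?_)
  ext j l
  have := curT_congr k1 k2 s t j l
  rw [D.curT1, WT_V, c, Matrix.zero_apply, add_zero, zero_add] at this
  exact this.symm

lemma md_ev {m n : Type} {M N : X3 → Matrix m n ℝ} {y : X3} (k : M =ᶠ[𝓝 y] N) (i : Fin 3) :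
    MD i M =ᶠ[𝓝 y] MD i N := by
  filter_upwards [k.eventually_nhds] with z hz
  ext a b
  simp only [MD_apply, pd]
  rw [EventuallyEq.fderiv_eq (hz.mono fun w hw => by rw [hw])]

lemma cc_ev {h' K' : X3 → M3} {y : X3} (k : h =ᶠ[𝓝 y] h') (k' : K =ᶠ[𝓝 y] K') (c : CC h K y) :
    CC h' K' y := by
  have g : ∀ i, GW h (fun z => (h z)⁻¹) K i =ᶠ[𝓝 y] GW h' (fun z => (h' z)⁻¹) K' i := fun i => by
    filter_upwards [k, k', eventually_all.2 (md_ev k)] with z h1 h2 h3
    simp only [GW, Chr, h1, h2, h3]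
  have g' : (fun i j => curv (GW h (fun z => (h z)⁻¹) K) i j y) =
      fun i j => curv (GW h' (fun z => (h' z)⁻¹) K') i j y := by
    funext i j
    simp only [curv, (g _).eq_of_nhds, (md_ev (g _) _).eq_of_nhds]
  rwa [CC, g', k.eq_of_nhds] at c

lemma exists_retr {S : Set X3} (hS : IsOpen S) {y : X3} (hy : y ∈ S) :
    ∃ φ : X3 → X3, ContDiff ℝ ∞ φ ∧ (∀ z, φ z ∈ S) ∧ ∃ r > 0, ∀ z ∈ Metric.ball y r, φ z = z := by
  obtain ⟨r, hr, hb⟩ := Metric.isOpen_iff.1 hS y hy
  let b : ContDiffBump y := ⟨r / 2, r, by positivity, by linarith⟩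
  refine ⟨fun z => y + b z • (z - y), contDiff_const.add (b.contDiff.smul
    (contDiff_id.sub contDiff_const)), fun z => hb ?_, r / 2, by positivity, fun z hz => ?_⟩
  · rw [mem_ball_iff_norm, add_sub_cancel_left, norm_smul, Real.norm_of_nonneg b.nonneg]
    rcases lt_or_ge (dist z y) r with k | k
    · exact (mul_le_of_le_one_left (norm_nonneg _) b.le_one).trans_lt (dist_eq_norm z y ▸ k)
    · rwa [b.zero_of_le_dist k, zero_mul]
  · show y + b z • (z - y) = z
    rw [b.one_of_mem_closedBall (Metric.ball_subset_closedBall hz), one_smul, add_sub_cancel]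

/-- The constraint equations from the constraints of the frame system. -/
theorem cvg (D : PD h K) {S : Set X3} (hS : IsOpen S) (hs : ∀ i, ContDiffOn ℝ ∞ (fun y => u y i) S)
    (hu : ∀ y ∈ S, u y O ≠ 0 ∧ detP (u y) ≠ 0 ∧ Ind (u y) (h y) (K y) ∧ Constr (u y) (dsl u y)) :
    ∀ y ∈ S, CC h K y := by
  intro y hy
  obtain ⟨φ, s, m, r, hr, e⟩ := exists_retr hS hy
  have F : FD0 (fun z => h (φ z)) (fun z => K (φ z)) fun z => u (φ z) :=
    ⟨⟨fun i j => (D.sh i j).comp s, fun i j => (D.sK i j).comp s, fun z => D.pos _⟩,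
      fun i => (hs i).comp_contDiff s m, fun z => ⟨(hu _ (m z)).1, (hu _ (m z)).2.1⟩,
      fun z a b => ((hu _ (m z)).2.2.1 a b).1⟩
  have ev := Metric.ball_mem_nhds y hr
  refine cc_ev (mem_of_superset ev fun z hz => ?_) (mem_of_superset ev fun z hz => ?_)
    (F.cc (w := u) Metric.isOpen_ball (fun z hz => ?_) y (Metric.mem_ball_self hr))
  · exact congrArg h (e z hz)
  · exact congrArg K (e z hz)
  · have hz' : z ∈ S := e z hz ▸ m z
    simp only [e z hz]
    exact ⟨trivial, fun a b => ((hu z hz').2.2.1 a b).2, (hu z hz').2.2.2⟩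

end Vale.Agent.P354M2
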