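import Vale.Agent.P354GT.Uq
import Vale.Agent.P354KU.Push
import Vale.Agent.P354M2.Cvg

/-!
EXTR: the data induced by a solution on a slice.
-/

open scoped ContDiff
open Set Filter Topology Matrix

noncomputable section

namespace Vale.Agent.P354M2

open Vale.Agent.P354n (R4 c1 c2)
open Vale.Agent.P354C Vale.Agent.P354C.Ix
open Vale.Agent.P354H (X3 e sl)
open Vale.Agent.P354J (hf Kf nU M3 pb Phi Psi Ind PDy Cu kap)
open Vale.Agent.P354JK (phi_psi psi_phi psi_smooth)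
open Vale.Agent.P354P (rr flip fz dz fl Ft Uf fderiv_flip conn_chr fl_nU rr_smooth rr_flip)
open Vale.Agent.P354I (X Dat Strip r2 IndAt EXTR)
open Vale.Agent.P354GT (St Fu fu isOpen_St)
open Vale.Agent.P354R (Pull)
open Vale.Agent.P354RC (k2)
open Vale.Agent.P354KU (den pf Nm pb_pf pf_pb den_ne ne_of_den)

variable {a b t : ℝ} {U : Bool → R4 → Ix → ℝ} {σ : Bool} {z : X3} {y : X}

/-- The induced forms agree in the two charts. -/
lemma hK_flip (h : Strip a b U) (ht : t ∈ Ioo a b) (h1 : r2 z < 4) (h2 : 1 / 4 < r2 z) (v w : X3) :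
    hf (U σ (t, z)) v w = hf (U (!σ) (t, fz z)) (dz z v) (dz z w) ∧
      Kf (U σ (t, z)) v w = Kf (U (!σ) (t, fz z)) (dz z v) (dz z w) := by
  let A : Set R4 := {p ∈ St a b | 1 / 4 < rr p}
  have oA : IsOpen A := (isOpen_St a b).and (isOpen_lt continuous_const rr_smooth.continuous)
  have r0 : ∀ p ∈ A, 0 < rr p := fun p hp => lt_trans (by norm_num) hp.2
  have hm : MapsTo flip A (St a b) := fun p hp => ⟨hp.1.1, by
    rw [rr_flip, inv_lt_comm₀ (r0 p hp) (by norm_num)]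
    linarith [hp.2]⟩
  have F := fu h σ
  have F' := fu h (!σ)
  obtain ⟨P0, -⟩ := P354P.flipped P354Q.vac P354Q.conv oA (isOpen_St a b) F'.1
    (fun p hp => (r0 p hp).ne') hm fun p hp => ⟨(F'.2 p hp).1.ne', (F'.2 p hp).2⟩
  have P : Pull flip (met (U σ)) A (met (U (!σ))) (St a b) :=
    ⟨oA, P0.isOpen, P0.met, P0.smooth, hm, P0.inj, fun p hp => h.compat σ p hp.1.1 hp.1.2 hp.2⟩
  have hp : ((t, z) : R4) ∈ A := ⟨⟨ht, h1⟩, h2⟩
  have hp' : ((t, fz z) : R4) ∈ St a b := hm hp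
  have r := (r0 _ hp).ne'
  obtain ⟨k1, k2', -⟩ := F.2 _ hp.1
  obtain ⟨k1', k3, -⟩ := F'.2 _ hp'
  have n : nU (U σ (t, z)) = nU (Ft (t, z) (U (!σ) (t, fz z))) := by
    obtain ⟨-, k⟩ := P354GT.of_cfu (u' := Ft (t, z) (U (!σ) (t, fz z))) k1 k2' k1'
      (by rw [P354P.detP_Ft r]; exact mul_ne_zero (pow_ne_zero 2 r) k3)
      (P354GT.cfu_of_hf k1.ne' k2' fun i j => (P.eq _ hp (0, e i) (0, e j)).trans
        (P354P.met_Uf (W := U (!σ)) (p := (t, z)) r k3 (0, e i) (0, e j)).symm)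
    simp only [nU, fr, E, k O (by simp), k b1 (by simp), k b2 (by simp), P354GT.Rt,
      Matrix.cons_val_zero, Matrix.cons_val_one]
  have c := (F.vac (isOpen_St a b)).1 _ hp.1
  have c' := (F'.vac (isOpen_St a b)).1 _ hp'
  have i := (P354J.ind (U σ) _ k2' k1.ne').2
  have i' := (P354J.ind (U (!σ)) _ k3 k1'.ne').2
  have f : ∀ a, fderiv ℝ flip (t, z) (0, a) = (0, dz z a) := fun a => fderiv_flip r _
  have q := k2.2.2.2.2 _ _ _ _ _ P _ hp (0, v) (0, w) (nU (U σ (t, z)))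
  have s : (fderiv ℝ (fun y => fderiv ℝ flip y (0, w)) (t, z) (0, v)).1 = 0 := by
    by_cases hd : DifferentiableAt ℝ (fun y => fderiv ℝ flip y (0, w)) (t, z)
    · have := (hasFDerivAt_const (𝕜 := ℝ) (0 : ℝ) ((t, z) : R4)).congr_of_eventuallyEq
        (f₁ := fun y => (fderiv ℝ flip y (0, w)).1)
        ((rr_smooth.continuous.continuousAt.eventually_ne r).mono fun y hy => by
          simp only [fderiv_flip hy]; rfl)
      exact DFunLike.congr_fun (hd.hasFDerivAt.fst.unique this) (0, v)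
    · rw [fderiv_zero_of_not_differentiableAt hd]; rfl
  refine ⟨by rw [← (i v w).2.2.1, ← (i' _ _).2.2.1, P.eq _ hp, f, f]; rfl, ?_⟩
  rw [f, f, fderiv_flip r, conn_chr c, show flip (t, z) = (t, fz z) from rfl, conn_chr c',
    ← Prod.mk.eta (p := fderiv ℝ _ (t, z) (0, v)), s, n, fl_nU r, (i' _ 0).1, add_zero, ← n] at q
  rw [← (i v w).2.2.2, ← (i' _ _).2.2.2, (k2.1 _ _ _ _ _ P).symm _ hp, q,
    P.met.symm (t, fz z) hp']

/-- The induced forms in the charts. -/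
def Hs (U : Bool → R4 → Ix → ℝ) (t : ℝ) (σ : Bool) (z : X3) : M3 :=
  Matrix.of fun i j => hf (U σ (t, z)) (e i) (e j)
def Ks (U : Bool → R4 → Ix → ℝ) (t : ℝ) (σ : Bool) (z : X3) : M3 :=
  Matrix.of fun i j => Kf (U σ (t, z)) (e i) (e j)

/-- The domains of the charts. -/
def Wd (σ : Bool) : Set X := {y | den σ y ≠ 0 ∧ r2 (Psi σ y) < 4}

lemma r2_cont : Continuous r2 := by unfold P354I.r2; fun_prop

lemma isOpen_Wd (σ : Bool) : IsOpen (Wd σ) :=
  isOpen_iff_mem_nhds.2 fun _ hy => ((P354KU.open_den σ).eventually_mem hy.1).and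
    ((r2_cont.continuousAt.comp
      (psi_smooth σ (ne_of_den hy.1) hy.1).continuousAt).eventually_lt continuousAt_const hy.2)

lemma phi_Wd (h : r2 z < 4) : Phi σ z ∈ Wd σ := ⟨den_ne σ z, by rwa [psi_phi]⟩

lemma cover_Wd (hy : y ≠ 0) : ∃ σ, y ∈ Wd σ := by
  obtain ⟨σ, h⟩ : ∃ σ, 0 ≤ P354E.sg σ * y 2 := by
    rcases le_total 0 (y 2) with h | h
    exacts [⟨true, by simpa [P354E.sg]⟩, ⟨false, by simpa [P354E.sg]⟩]
  have n := norm_pos_iff.2 hy
  have d : 0 < ‖y‖ + P354E.sg σ * y 2 := by linarith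
  have k : ∀ i, (y i / (‖y‖ + P354E.sg σ * y 2)) ^ 2 ≤ 1 := fun i => by
    rw [sq_le_one_iff_abs_le_one, abs_div, abs_of_pos d, div_le_one d]
    exact (PiLp.norm_apply_le y i).trans (by linarith)
  exact ⟨σ, d.ne', (add_le_add (k 0) (k 1)).trans_lt (by norm_num)⟩

lemma pf_congr {H H' : X3 → M3} (h : H (Psi σ y) = H' (Psi σ y)) : pf σ H y = pf σ H' y := by
  rw [pf, pf, h]

lemma overlap (h : Strip a b U) (ht : t ∈ Ioo a b) (h1 : y ∈ Wd σ) (h2 : y ∈ Wd (!σ)) :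
    pf σ (Hs U t σ) y = pf (!σ) (Hs U t (!σ)) y ∧ pf σ (Ks U t σ) y = pf (!σ) (Ks U t (!σ)) y := by
  obtain ⟨z, rfl⟩ : ∃ z, y = Phi σ z := ⟨_, (phi_psi σ (ne_of_den h1.1) h1.1).symm⟩
  have r : rr (0, z) ≠ 0 := by
    refine (P354P.mem_src_not (σ := σ) (y := (0, z))).1 fun k => h2.1 ?_
    rw [den, P354JK.norm_phi,
      show Phi σ z 2 = Real.exp z.1 * (P354E.st σ z.2).1 2 from rfl]
    linear_combination Real.exp z.1 * k
  have r' : 0 < rr (0, z) := (P354P.rr_nonneg _).lt_of_ne' r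
  have k1 := h1.2
  have k2 := h2.2
  rw [psi_phi] at k1
  rw [← P354P.phi_fz r, psi_phi, show r2 (fz z) = _ from rr_flip (0, z),
    inv_lt_comm₀ r' (by norm_num)] at k2
  have q := P354P.ind_fz (σ := σ) (u := U (!σ) (t, fz z)) (F := pf (!σ) (Hs U t (!σ)))
    (G := pf (!σ) (Ks U t (!σ))) r fun i j => by rw [pb_pf, pb_pf]; exact ⟨rfl, rfl⟩
  have k := fun i j => hK_flip (σ := σ) h ht k1 (lt_of_eq_of_lt (by norm_num) k2) (e i) (e j)
  rw [← pf_pb h1.1 (pf (!σ) (Hs U t (!σ))), ← pf_pb h1.1 (pf (!σ) (Ks U t (!σ)))]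
  refine ⟨pf_congr ?_, pf_congr ?_⟩ <;> rw [psi_phi] <;> ext i j
  exacts [(k i j).1.trans (q i j).1, (k i j).2.trans (q i j).2]

open Classical in
/-- The induced data. -/
def dat (U : Bool → R4 → Ix → ℝ) (t : ℝ) : Dat where
  h y := if y ∈ Wd true then pf true (Hs U t true) y else pf false (Hs U t false) y
  K y := if y ∈ Wd true then pf true (Ks U t true) y else pf false (Ks U t false) y

lemma dat_eq (h : Strip a b U) (ht : t ∈ Ioo a b) (hy : y ∈ Wd σ) :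
    (dat U t).h y = pf σ (Hs U t σ) y ∧ (dat U t).K y = pf σ (Ks U t σ) y := by
  by_cases k : y ∈ Wd true
  · simp only [dat, if_pos k]
    cases σ
    exacts [overlap h ht k hy, ⟨rfl, rfl⟩]
  · simp only [dat, if_neg k]
    cases σ
    exacts [⟨rfl, rfl⟩, absurd hy k]

lemma dat_ind (h : Strip a b U) (ht : t ∈ Ioo a b) : IndAt U t (dat U t) := by
  intro σ z hz i j
  obtain ⟨k1, k2⟩ := dat_eq h ht (phi_Wd (σ := σ) hz)
  rw [pb, pb, k1, k2, ← pb, ← pb, pb_pf, pb_pf]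
  exact ⟨rfl, rfl⟩

lemma sm_hK {u : Ix → ℝ} (h : detP u ≠ 0) (v w : X3) :
    ContDiffAt ℝ ∞ (fun u => hf u v w) u ∧ ContDiffAt ℝ ∞ (fun u => Kf u v w) u := by
  have k : ∀ a k, ContDiffAt ℝ ∞ (fun u => th u a k) u := fun a k => by
    simp only [detP] at h
    fin_cases k <;> simp only [th, detP, Fin.zero_eta, Fin.mk_one, Fin.reduceFinMk,
      Matrix.cons_val_zero, Matrix.cons_val_one, Matrix.cons_val] <;> fun_prop (disch := exact h)
  have g : ∀ i j k, ContDiffAt ℝ ∞ (fun u : Ix → ℝ => Gam u i j k) u := fun i j k =>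
    (LinearMap.toContinuousLinearMap (P354J.gamL i j k)).contDiff.contDiffAt
  have o : ContDiffAt ℝ ∞ (fun u : Ix → ℝ => u O) u := (contDiff_apply ℝ ℝ O).contDiffAt
  exact ⟨(o.pow 2).mul (((contDiffAt_const.mul (((k _ 0).mul (k _ 1)).add
    ((k _ 1).mul (k _ 0)))).neg.add ((k _ 2).mul (k _ 2))).add ((k _ 3).mul (k _ 3))),
    o.mul (ContDiffAt.sum fun i _ => ContDiffAt.sum fun j _ =>
      ((k _ i).mul ((g i 0 j).add (g i 1 j))).mul (k _ j))⟩

lemma sm_sl (h : Strip a b U) (ht : t ∈ Ioo a b) (hz : r2 z < 4) (i : Ix) :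
    ContDiffAt ℝ ∞ (fun z => U σ (t, z) i) z :=
  ((h.sm σ i).contDiffAt ((isOpen_St a b).mem_nhds (show (t, z) ∈ St a b from ⟨ht, hz⟩))).comp z
    (contDiffAt_const.prodMk contDiffAt_id)

lemma pf_at {H : X3 → M3} (hy : den σ y ≠ 0)
    (hH : ∀ i j, ContDiffAt ℝ ∞ (fun z => H z i j) (Psi σ y)) (i j : Fin 3) :
    ContDiffAt ℝ ∞ (fun y => pf σ H y i j) y := by
  have n := fun i c => (P354KU.nm_on σ i c).contDiffAt ((P354KU.open_den σ).mem_nhds hy)
  rw [P354KU.pf_eq]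
  exact ContDiffAt.sum fun p _ => ((hH _ _).comp y (psi_smooth σ (ne_of_den hy) hy)).smul
    ((n _ _).mul (n _ _))

lemma kap_symm {u : Ix → ℝ} {du : Fin 4 → Ix → ℝ} (h : Full u du) : (kap u)ᵀ = kap u := by
  have k := fun x y => h.tor x y 0
  have k' := fun x y => h.tor x y 1
  have a1 := k 0 2
  have a2 := k 0 3
  have a3 := k 1 2
  have a4 := k 1 3
  have a5 := k 2 3
  have b1 := k' 0 2
  have b2 := k' 0 3
  have b3 := k' 1 2
  have b4 := k' 1 3
  have b5 := k' 2 3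
  simp [torC, Gam, E, dEof, Fin.sum_univ_four] at a1 a2 a3 a4 a5 b1 b2 b3 b4 b5
  ext i j
  fin_cases i <;> fin_cases j <;> simp [kap] <;> linarith

lemma dat_pdy (h : Strip a b U) (ht : t ∈ Ioo a b) : PDy (dat U t) := by
  refine ⟨fun i j => ?_, fun y hy => ?_⟩
  · have k : ∀ y ≠ 0, ContDiffAt ℝ ∞ (fun y => (dat U t).h y i j) y ∧
        ContDiffAt ℝ ∞ (fun y => (dat U t).K y i j) y := fun y hy => by
      obtain ⟨σ, hσ⟩ := cover_Wd hy
      have s : ContDiffAt ℝ ∞ (fun z => U σ (t, z)) (Psi σ y) := contDiffAt_pi.2 (sm_sl h ht hσ.2)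
      have s' := fun v w => sm_hK (h.full σ (t, Psi σ y) ht hσ.2).2.1 v w
      have s1 := fun i j => ContDiffAt.comp (f := fun z => U σ (t, z)) _ (s' (e i) (e j)).1 s
      have s2 := fun i j => ContDiffAt.comp (f := fun z => U σ (t, z)) _ (s' (e i) (e j)).2 s
      have ev := (isOpen_Wd σ).eventually_mem hσ
      exact ⟨(pf_at (H := Hs U t σ) hσ.1 s1 i j).congr_of_eventuallyEq
          (ev.mono fun w hw => by simp only [(dat_eq h ht hw).1]),
        (pf_at (H := Ks U t σ) hσ.1 s2 i j).congr_of_eventuallyEq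
          (ev.mono fun w hw => by simp only [(dat_eq h ht hw).2])⟩
    exact ⟨fun y hy => (k y hy).1.contDiffWithinAt, fun y hy => (k y hy).2.contDiffWithinAt⟩
  obtain ⟨σ, hσ⟩ := cover_Wd hy
  obtain ⟨k1, k2, k3⟩ := h.full σ (t, Psi σ y) ht hσ.2
  rw [(dat_eq h ht hσ).1, (dat_eq h ht hσ).2]
  have e1 : Hs U t σ (Psi σ y) = U σ (t, Psi σ y) O ^ 2 •
      (Cu (U σ (t, Psi σ y)) * 1 * (Cu (U σ (t, Psi σ y)))ᴴ) := by
    ext i j
    rw [mul_one, conjTranspose_eq_transpose_of_trivial]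
    exact P354J.hf_eq _ i j
  have e2 : Ks U t σ (Psi σ y) = U σ (t, Psi σ y) O •
      (Cu (U σ (t, Psi σ y)) * kap (U σ (t, Psi σ y)) * (Cu (U σ (t, Psi σ y)))ᵀ) := by
    ext i j
    exact P354J.Kf_eq _ i j
  have p1 : (Hs U t σ (Psi σ y)).PosDef := by
    rw [e1]
    exact (PosDef.one.mul_mul_conjTranspose_same (vecMul_injective_iff_isUnit.2
      (IsUnit.of_mul_eq_one _ (P354J.Cu_Eu k2)))).smul (pow_pos k1 2)
  refine ⟨p1.mul_mul_conjTranspose_same (vecMul_injective_iff_isUnit.2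
    (IsUnit.of_mul_eq_one _ (P354KU.nm_jm hσ.1))), ?_⟩
  rw [pf, IsSymm, e2]
  simp only [transpose_mul, transpose_transpose, transpose_smul, kap_symm k3, Matrix.mul_assoc]

/-- **EXTR.** -/
theorem extr : EXTR := by
  intro a b U h t ht
  refine ⟨dat U t, dat_pdy h ht, fun y hy => ?_, dat_ind h ht⟩
  obtain ⟨σ, hσ⟩ := cover_Wd hy
  obtain ⟨D, k⟩ := P354J.sl2 (dat U t) σ (dat_pdy h ht)
  rw [← phi_psi σ hy hσ.1]
  refine (k _).1 (cvg (u := sl (U σ) t) (S := {z | r2 z < 4}) D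
    (isOpen_lt r2_cont continuous_const)
    (fun i z hz => (sm_sl h ht hz i).contDiffWithinAt) (fun z hz => ?_) _ hσ.2)
  obtain ⟨k1, k2, k3⟩ := h.full σ (t, z) ht hz
  exact ⟨k1.ne', k2, dat_ind h ht σ z hz, (P354J.dslThm _ t z
    ((fu h σ).dif (isOpen_St a b) ⟨ht, hz⟩)).1 (P354P.Full.constr k3)⟩

end Vale.Agent.P354M2
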